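import Vale.Agent.P273.H503.Elt
import Vale.Agent.P273.H93.Comb

/-!
The top of the chain for P273: the final statement from named inputs.
-/

noncomputable section

namespace Vale.Agent.P273.H503

open Sum Vale.Agent.P273.H183 Vale.Agent.P273.H837 Vale.Agent.P273.H93
open Vale.Agent.P273.Z (hd th Fn Pix Valid)

/-- Legs. -/
abbrev Lg14 : Type := Fin 7 × Bool

/-- A form of degree 16 on families. -/
abbrev Form16 : Type 1 :=
  ∀ m', Fam Lg14 m' → (Fin m' → ℂ) → (Fin m' → ℂ) [⋀^Fin (8 * 2)]→L[ℝ] ℝ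

open Classical in
/-- The integral of `F` over the stratum of `h`. -/
def str (F : Form16) (h : Gr) : ℝ :=
  if H : ∃ (c : Coord h 8) (C : Fam Lg14 8), C.IsStable ∧ c.IsGlued C then
    ∫ b in H.choose.base, dens (F 8 H.choose_spec.choose) b else 0

/-- (FAM-GLUE + FAM-ST) the families of the strata exist and are stable. -/
def Exist : Prop :=
  ∀ (e : Bool → Bool) (p q : ℕ) (σ : Bool → Equiv.Perm (Fin 7)), p ≤ q → q ≤ 6 →
    ∃ (c : Coord (thE e p q σ) 8) (C : Fam Lg14 8), C.IsStable ∧ c.IsGlued C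

/-- (IND) the integral does not depend on the choice of coordinates and of the family, and is
invariant under isomorphisms of graphs. -/
def Indep : Prop :=
  ∀ F : Form16, IsClosedForm Lg14 (8 * 2) F → ∀ (h h' : Gr) (P : Equiv.Perm (Option (Fin 7)))
    (Q : Equiv.Perm ((Fin 3 ⊕ Fin 6) × Bool)),
    (∀ e, (Q (e, true)).1 = (Q (e, false)).1) → (∀ y, h' (y.map Q id) = P (h y)) →
    ∀ (c : Coord h 8) (C : Fam Lg14 8) (c' : Coord h' 8) (C' : Fam Lg14 8),
      C.IsStable → c.IsGlued C → C'.IsStable → c'.IsGlued C' →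
      (MeasureTheory.IntegrableOn (dens (F 8 C)) c.base →
        MeasureTheory.IntegrableOn (dens (F 8 C')) c'.base) ∧
      ∫ b in c.base, dens (F 8 C) b = ∫ b in c'.base, dens (F 8 C') b

/-- (IND, existence) the existence of a glued family is invariant under isomorphisms. -/
def IndepEx : Prop :=
  ∀ (h h' : Gr) (P : Equiv.Perm (Option (Fin 7))) (Q : Equiv.Perm ((Fin 3 ⊕ Fin 6) × Bool)),
    (∀ e, (Q (e, true)).1 = (Q (e, false)).1) → (∀ y, h' (y.map Q id) = P (h y)) →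
    (∃ (c : Coord h 8) (C : Fam Lg14 8), C.IsStable ∧ c.IsGlued C) →
    ∃ (c : Coord h' 8) (C : Fam Lg14 8), C.IsStable ∧ c.IsGlued C

/-- (INT) absolute convergence, for one choice. -/
def Integr : Prop :=
  ∀ F : Form16, IsClosedForm Lg14 (8 * 2) F →
    ∀ (e : Bool → Bool) (p q : ℕ) (σ : Bool → Equiv.Perm (Fin 7)), p ≤ q → q ≤ 6 →
      ∃ (c : Coord (thE e p q σ) 8) (C : Fam Lg14 8), C.IsStable ∧ c.IsGlued C ∧
        MeasureTheory.IntegrableOn (dens (F 8 C)) c.base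

/-- (LIM) the limit of the identity of the certificate; `C p q` is the coefficient of the theta
graphs with chains of lengths `p`, `q - p`, `6 - q`. -/
def LimOut (C : ℕ → ℕ → ℝ) : Prop :=
  ∀ F : Form16, IsClosedForm Lg14 (8 * 2) F →
    ∑ q ∈ Finset.range 7, ∑ p ∈ Finset.range (q + 1), C p q * DS p q (str F) = 0

/-- (CERT) the symmetrized coefficients. -/
def Coeff (C : ℕ → ℕ → ℝ) (K : ℝ) : Prop :=
  K ≠ 0 ∧ C 2 4 = K ∧
  C 1 3 + C 1 4 + C 2 3 + C 2 5 + C 3 4 + C 3 5 = -2 * K ∧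
  C 0 3 + C 3 3 + C 3 6 = K ∧
  C 1 2 + C 1 5 + C 4 5 = K ∧
  C 0 2 + C 0 4 + C 2 2 + C 2 6 + C 4 4 + C 4 6 = -K ∧
  C 0 1 + C 0 5 + C 1 1 + C 1 6 + C 5 5 + C 5 6 = 0 ∧
  C 0 0 + C 0 6 + C 6 6 = 0

/-- (SPLIT) The graphs are stable of type (2, 14), and some functional that satisfies all of
Pixton's relations is not zero at the element. -/
def Split : Prop :=
  (∀ i : Ix, Valid (fun _ => (0, 0)) (fun y => (xh i y, 0)) 2 9) ∧
  ∃ s : Fn Lg14, Pix 2 9 s ∧
    ∑ i : Ix, xa i * s _ _ (fun _ => (0, 0)) (fun y => (xh i y, 0)) ≠ 0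

theorem str_eq (hI : Indep) {F : Form16} (hF : IsClosedForm Lg14 (8 * 2) F) {h : Gr}
    (c : Coord h 8) (C : Fam Lg14 8) (h1 : C.IsStable) (h2 : c.IsGlued C) :
    ∫ b in c.base, dens (F 8 C) b = str F h := by
  have H : ∃ (c : Coord h 8) (C : Fam Lg14 8), C.IsStable ∧ c.IsGlued C := ⟨c, C, h1, h2⟩
  rw [str, dif_pos H]
  exact (hI F hF h h (Equiv.refl _) (Equiv.refl _) (fun _ => rfl)
    (fun y => by simp) c C _ _ h1 h2 H.choose_spec.choose_spec.1 H.choose_spec.choose_spec.2).2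

/-- the inverse of an isomorphism of half-edges -/
theorem inv_side {Q : Equiv.Perm ((Fin 3 ⊕ Fin 6) × Bool)}
    (hQe : ∀ e, (Q (e, true)).1 = (Q (e, false)).1) (e : Fin 3 ⊕ Fin 6) :
    (Q.symm (e, true)).1 = (Q.symm (e, false)).1 := by
  have key : ∀ a : Fin 3 ⊕ Fin 6, ∀ s : Bool, (Q (a, s)).1 = e → ∀ t : Bool,
      (Q.symm (e, t)).1 = a := by
    intro a s hs t
    have h3 : (Q (a, !s)).1 = e := by
      cases s
      · exact (hQe a).trans hs
      · exact (hQe a).symm.trans hs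
    have h4 : Q (a, s) ≠ Q (a, !s) := fun h => by
      have := Q.injective h
      simp at this
    have h5 : (Q (a, s)).2 ≠ (Q (a, !s)).2 := fun h => h4 (Prod.ext (hs.trans h3.symm) h)
    have h6 : Q (a, s) = (e, t) ∨ Q (a, !s) = (e, t) := by
      by_cases h : (Q (a, s)).2 = t
      · exact Or.inl (Prod.ext hs h)
      · right
        refine Prod.ext h3 ?_
        revert h h5
        cases (Q (a, s)).2 <;> cases (Q (a, !s)).2 <;> cases t <;> simp
    rcases h6 with h6 | h6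
    · rw [← h6, Equiv.symm_apply_apply]
    · rw [← h6, Equiv.symm_apply_apply]
  have h7 : (Q (Q.symm (e, false))).1 = e := by rw [Equiv.apply_symm_apply]
  exact key (Q.symm (e, false)).1 (Q.symm (e, false)).2 h7 true

theorem str_inv (hI : Indep) (hE : IndepEx) {F : Form16} (hF : IsClosedForm Lg14 (8 * 2) F) :
    Inv (str F) := by
  intro P Q hQe h h' hPQ
  by_cases H : ∃ (c : Coord h 8) (C : Fam Lg14 8), C.IsStable ∧ c.IsGlued C
  · obtain ⟨c', C', h3, h4⟩ := hE h h' P Q hQe hPQ H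
    obtain ⟨c, C, h1, h2⟩ := H
    rw [← str_eq hI hF c C h1 h2, ← str_eq hI hF c' C' h3 h4]
    exact (hI F hF h h' P Q hQe hPQ c C c' C' h1 h2 h3 h4).2
  · have H' : ¬ ∃ (c : Coord h' 8) (C : Fam Lg14 8), C.IsStable ∧ c.IsGlued C := by
      intro H'
      apply H
      refine hE h' h P.symm Q.symm (inv_side hQe) (fun y => ?_) H'
      have h5 := hPQ (y.map Q.symm id)
      rw [Sum.map_map] at h5
      have h6 : y.map (Q ∘ Q.symm) (id ∘ id) = y := by
        rcases y with y | y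
        · simp
        · rfl
      rw [h6] at h5
      rw [h5, Equiv.symm_apply_apply]
    rw [str, str, dif_neg H, dif_neg H']

theorem sum_Ix {M : Type*} [AddCommMonoid M] (f : Ix → M) :
    ∑ i, f i = ∑ σ : Bool → Equiv.Perm (Fin 7), ∑ k : Fin 5,
    (f (σ, k, true) + f (σ, k, false)) := by
  rw [Fintype.sum_prod_type]
  refine Finset.sum_congr rfl fun σ _ => ?_
  rw [Fintype.sum_prod_type]
  refine Finset.sum_congr rfl fun k _ => ?_
  rw [Fintype.sum_bool]

theorem thx_eq (c : Bool) (p q : ℕ) (σ : Bool → Equiv.Perm (Fin 7)) :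
    thx c p q σ = thE (cond c (fun b => b) (fun _ => true)) p q σ := by
  funext y
  rcases y with y | ⟨i, b⟩
  · rfl
  · simp only [thx, thE, Sum.elim_inr, lg]
    cases c <;> cases b <;> simp [and_comm]

theorem sum_xa (G : Gr → ℝ) : ∑ i : Ix, (xa i : ℝ) * G (xh i) = onX' G := by
  rw [sum_Ix]
  simp only [onX', DD, ES, Finset.mul_sum, ← Finset.sum_add_distrib, ← Finset.sum_sub_distrib,
    zsmul_eq_mul, sgn]
  refine Finset.sum_congr rfl fun σ _ => ?_
  simp only [Fin.sum_univ_five, xa, xh, thx_eq, tco, tpq, cond_true, cond_false]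
  simp [Matrix.cons_val_zero, Matrix.cons_val_one]
  ring

theorem tpq_le (k : Fin 5) : (tpq k).1 ≤ (tpq k).2 ∧ (tpq k).2 ≤ 6 := by
  fin_cases k <;> simp [tpq]

/-- **The top of the chain.** -/
theorem final_of (hEx : Exist) (hI : Indep) (hE : IndepEx) (hInt : Integr) {C : ℕ → ℕ → ℝ}
    {K : ℝ} (hLim : LimOut C) (hC : Coeff C K) (hS : Split) : Final := by
  refine ⟨hS.1, ⟨fun i => ?_, fun F hF => ⟨fun i => str F (xh i), ?_,
    fun i c D hD hc => ⟨?_, str_eq hI hF c D hD hc⟩⟩⟩, hS.2⟩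
  · rw [xh, thx_eq]
    exact hEx _ _ _ _ (tpq_le _).1 (tpq_le _).2
  · obtain ⟨hK, h222, h123, h033, h114, h024, h015, h006⟩ := hC
    rw [sum_xa]
    exact lim_onX (str_inv hI hE hF) C K hK h006 h015 h024 h033 h114 h123 h222 (hLim F hF)
  · obtain ⟨c', D', h1, h2, h3⟩ := hInt F hF (cond i.2.2 (fun b => b) (fun _ => true))
      (tpq i.2.1).1 (tpq i.2.1).2 i.1 (tpq_le _).1 (tpq_le _).2
    exact (hI F hF _ _ (Equiv.refl _) (Equiv.refl _) (fun _ => rfl)
      (fun y => by simp [xh, thx_eq]) c' D' c D h1 h2 hD hc).1 h3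

end Vale.Agent.P273.H503

end
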