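import Vale.Agent.P273.H503.Top
import Vale.Agent.P273.H888.Split

/-!
The part of the final statement about Pixton's relations.
-/

noncomputable section

namespace Vale.Agent.P273.H503

open Sum Vale.Agent.P273.H93
open Vale.Agent.P273.Z (hd th Fn Pix Valid onX)

theorem xh_thc (i : Ix) : xh i = H888.thc (fun b => i.2.2 && !b) (tpq i.2.1).1
    (tpq i.2.1).2 i.1 := by
  funext y
  rcases y with y | ⟨j, b⟩
  · rfl
  · simp only [xh, thx, H888.thc, Sum.elim_inr]
    cases i.2.2 <;> cases b <;> simp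

theorem xh_false (σ : Bool → Equiv.Perm (Fin 7)) (k : Fin 5) :
    xh (σ, k, false) = th (tpq k).1 (tpq k).2 σ := by
  rw [xh, thx_eq]
  exact thE_true _ _ _

theorem split : Split := by
  obtain ⟨h1, s, h2, h3, h4⟩ := H888.split_part
  refine ⟨fun i => ?_, s, h2, ?_⟩
  · rw [xh_thc]
    exact h1 _ _ _ _ (tpq_le _).1 (tpq_le _).2
  · rw [sum_Ix]
    have h5 : ∀ (σ : Bool → Equiv.Perm (Fin 7)) (k : Fin 5),
        xa (σ, k, true) * s _ _ (fun _ => (0, 0)) (fun y => (xh (σ, k, true) y, 0)) +
        xa (σ, k, false) * s _ _ (fun _ => (0, 0)) (fun y => (xh (σ, k, false) y, 0)) =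
        2 * ((Equiv.Perm.sign (σ true) * Equiv.Perm.sign (σ false) : ℤ) : ℚ) * (tco k *
          s _ _ (fun _ => (0, 0)) (fun y => (th (tpq k).1 (tpq k).2 σ y, 0))) := by
      intro σ k
      rw [xh_thc (σ, k, true), h4 _ _ _ _ (tpq_le _).1 (tpq_le _).2]
      rw [show (fun y => (xh (σ, k, false) y, 0)) =
        fun y => ((th (tpq k).1 (tpq k).2 σ y, 0) : Option (Fin 7) × ℕ) by rw [xh_false]]
      simp only [xa, cond_true, cond_false, Bool.true_and, Bool.not_true, Bool.not_false]
      norm_num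
      ring
    simp only [h5]
    intro h6
    apply h3
    have h7 : (∑ σ : Bool → Equiv.Perm (Fin 7), ∑ k : Fin 5,
        2 * ((Equiv.Perm.sign (σ true) * Equiv.Perm.sign (σ false) : ℤ) : ℚ) * (tco k *
          s _ _ (fun _ => (0, 0)) (fun y => (th (tpq k).1 (tpq k).2 σ y, 0)))) =
        2 * onX (fun h => s _ _ (fun _ => (0, 0)) fun y => (h y, 0)) := by
      rw [onX, Finset.mul_sum]
      refine Finset.sum_congr rfl fun σ _ => ?_
      simp only [Fin.sum_univ_five, tco, tpq]
      simp [Matrix.cons_val_zero, Matrix.cons_val_one]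
      ring
    rw [h7] at h6
    linarith

/-- **Everything but the geometry.** -/
theorem final_of' (hEx : Exist) (hI : Indep) (hE : IndepEx) (hInt : Integr) {C : ℕ → ℕ → ℝ}
    {K : ℝ} (hLim : LimOut C) (hC : Coeff C K) : Final :=
  final_of hEx hI hE hInt hLim hC split

end Vale.Agent.P273.H503

end
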