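import Vale.Agent.P273.H95.Wall
import Vale.Agent.P273.H213.Vmap
import Vale.Agent.P273.H221.Mid
import Vale.Agent.P273.H828.TubeDefs
import Vale.Agent.P273.H879.OneNode

/-!
The glue between the walls: the coefficient `v` as a continuous multilinear form in fourteen
variables (`mtV`), the local system of two-forms `Phi v = PhiF X Θ (mtV v)` (`loc`), and the input
`BulkLim` of the middle of the chain from the objects delivered by the geometry, the gauge, the
decay and the limit (`bulkLim_of`).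
-/

noncomputable section
namespace Vale.Agent.P273.H503

open Set Filter MeasureTheory
open scoped Topology ContDiff

section Mult

/-- A multilinear form on copies of `ℝ^4` is continuous. -/
theorem cont_ml {n : ℕ} (f : MultilinearMap ℝ (fun _ : Fin n => H95.H4) ℝ) : Continuous f := by
  have h : (f : (Fin n → H95.H4) → ℝ) = fun m => ∑ r : Fin n → Fin 4,
      (∏ i, m i (r i)) * f (fun i => Pi.single (r i) 1) := by
    funext m
    have hm : m = fun i => ∑ a : Fin 4, m i a • (Pi.single a (1 : ℝ) : H95.H4) := by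
      funext i
      funext b
      simp [Finset.sum_apply, Pi.single_apply]
    conv_lhs => rw [hm]
    rw [MultilinearMap.map_sum]
    refine Finset.sum_congr rfl fun r _ => ?_
    rw [MultilinearMap.map_smul_univ]
    rfl
  rw [h]
  refine continuous_finsetSum _ fun r _ => ?_
  refine Continuous.mul ?_ continuous_const
  refine continuous_finsetProd _ fun i _ => ?_
  exact (continuous_apply (r i)).comp (continuous_apply i)

/-- The slots: `0..6` are the marks A, `7..13` the marks B. -/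
def eS : Fin 7 ⊕ Fin 7 ≃ Fin 14 := finSumFinEquiv

/-- The coefficient `v` as a continuous multilinear form: slots `0..6` are the marks A, slots `7..13`
the marks B. -/
def mtf (v : H213.VV) : H95.MT where
  toMultilinearMap := (H213.TT v).domDomCongr eS
  cont := cont_ml _

theorem mtf_apply (v : H213.VV) (w : Fin 14 → H95.H4) :
    mtf v w = H213.TT v (fun i => w (eS i)) := rfl

/-- The same, linear in `v`. -/
def mtV : H213.VV →ₗ[ℝ] H95.MT where
  toFun := mtf
  map_add' v v' := by
    ext w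
    rw [ContinuousMultilinearMap.add_apply, mtf_apply, mtf_apply, mtf_apply]
    exact congrArg (fun f => f fun i => w (eS i)) (H213.TTl.map_add v v')
  map_smul' c v := by
    ext w
    rw [RingHom.id_apply, ContinuousMultilinearMap.smul_apply, mtf_apply, mtf_apply]
    exact congrArg (fun f => f fun i => w (eS i)) (H213.TTl.map_smul c v)

theorem mtV_apply (v : H213.VV) (w : Fin 14 → H95.H4) :
    mtV v w = H213.TT v (fun i => w (eS i)) := rfl

theorem mrk_inl (a : Fin 7) : H95.mrk (eS (Sum.inl a)) = (a, true) := by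
  fin_cases a <;> rfl

theorem mrk_inr (a : Fin 7) : H95.mrk (eS (Sum.inr a)) = (a, false) := by
  fin_cases a <;> rfl

theorem symT_mtV (v : H213.VV) : H95.SymT (mtV v) := by
  intro a b hab w
  rw [mtV_apply, mtV_apply]
  obtain ⟨a, rfl⟩ := eS.surjective a
  obtain ⟨b, rfl⟩ := eS.surjective b
  have hsw : ∀ (x y z : Fin 7 ⊕ Fin 7), Equiv.swap (eS x) (eS y) (eS z) =
      eS (Equiv.swap x y z) := by
    intro x y z
    rcases eq_or_ne z x with rfl | hx
    · simp
    rcases eq_or_ne z y with rfl | hy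
    · simp
    rw [Equiv.swap_apply_of_ne_of_ne hx hy, Equiv.swap_apply_of_ne_of_ne
      (eS.injective.ne hx) (eS.injective.ne hy)]
  rcases a with a | a <;> rcases b with b | b
  · have h := H213.TT_symm v (fun i => w (eS i)) (Equiv.swap a b) 1
    rw [← h]
    refine congrArg (H213.TT v) (funext fun i => ?_)
    refine (congrArg w (hsw (Sum.inl a) (Sum.inl b) i)).trans ?_
    rw [← Equiv.Perm.sumCongr_swap_one]
  · exfalso
    rw [mrk_inl, mrk_inr] at hab
    exact absurd hab (by simp)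
  · exfalso
    rw [mrk_inl, mrk_inr] at hab
    exact absurd hab (by simp)
  · have h := H213.TT_symm v (fun i => w (eS i)) 1 (Equiv.swap a b)
    rw [← h]
    refine congrArg (H213.TT v) (funext fun i => ?_)
    refine (congrArg w (hsw (Sum.inr a) (Sum.inr b) i)).trans ?_
    rw [← Equiv.Perm.sumCongr_one_swap]

theorem sH_eq (k : Fin 5) (x : H95.H4) : H95.sH k x = H213.sH k x := by
  change x + H95.om (H95.dk k) x • H95.dk k = H213.sHf k x
  fin_cases k <;> funext i <;> fin_cases i <;> simp [H213.sHf, H95.om, H95.dk] <;> ring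

theorem mtV_sV (k : Fin 5) (v : H213.VV) :
    mtV (H213.sV k v) = (mtV v).compContinuousLinearMap fun _ => H95.sH k := by
  ext w
  rw [ContinuousMultilinearMap.compContinuousLinearMap_apply, mtV_apply, mtV_apply, H213.TT_sV]
  congr 1
  funext i
  exact (sH_eq k _).symm

end Mult

/-! ### The local system -/

section Loc

theorem swaux : ∀ (k : Fin 5) (i j : Fin 6), i < j →
    ¬ (Equiv.swap k.castSucc k.succ i < Equiv.swap k.castSucc k.succ j) →
    i = k.castSucc ∧ j = k.succ := by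
  decide

theorem swL_mem_XX {k : Fin 5} {b : H681.C6} (hb : b ∈ H681.XX)
    (hlt : (b k.succ).re < (b k.castSucc).re) : H681.swL k b ∈ H681.XX := by
  intro i j hij hre
  change (b (H681.sw k i)).re = (b (H681.sw k j)).re at hre
  change (b (H681.sw k j)).im < (b (H681.sw k i)).im
  by_cases h : H681.sw k i < H681.sw k j
  · exact hb _ _ h hre
  · exfalso
    have hik : i = k.castSucc ∧ j = k.succ := by
      exact swaux k i j hij h
    obtain ⟨rfl, rfl⟩ := hik
    rw [H681.sw, Equiv.swap_apply_left, Equiv.swap_apply_right] at hre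
    exact absurd hre (ne_of_lt hlt)

variable (X : H95.Ext) (Θ : H95.Gauge)

/-- The two-form of the coefficient `v`, cut off outside `XX`. -/
def phi0 (v : H213.VV) (b : H681.C6) : H681.C6 [⋀^Fin 2]→L[ℝ] ℝ := by
  classical exact if b ∈ H681.XX then H95.PhiF X Θ (mtV v) b else 0

variable {X Θ}

theorem phi0_eq {v : H213.VV} {b : H681.C6} (hb : b ∈ H681.XX) :
    phi0 X Θ v b = H95.PhiF X Θ (mtV v) b := if_pos hb

theorem phi0_ne {v : H213.VV} {b : H681.C6} (hb : b ∉ H681.XX) : phi0 X Θ v b = 0 := if_neg hb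

theorem phi0_add (hL : H95.BulkLinear) (v v' : H213.VV) :
    phi0 X Θ (v + v') = phi0 X Θ v + phi0 X Θ v' := by
  funext b
  by_cases hb : b ∈ H681.XX
  · rw [Pi.add_apply, phi0_eq hb, phi0_eq hb, phi0_eq hb]
    have h := hL X Θ (mtV v) (mtV v') (symT_mtV v) (symT_mtV v') 1 b hb
    rw [one_smul, one_smul] at h
    rw [map_add, h]
  · rw [Pi.add_apply, phi0_ne hb, phi0_ne hb, phi0_ne hb, add_zero]

theorem phi0_smul (hL : H95.BulkLinear) (c : ℝ) (v : H213.VV) :
    phi0 X Θ (c • v) = c • phi0 X Θ v := by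
  funext b
  by_cases hb : b ∈ H681.XX
  · rw [Pi.smul_apply, phi0_eq hb, phi0_eq hb]
    have h0 := hL X Θ 0 0 (by simpa using symT_mtV 0) (by simpa using symT_mtV 0) 1 b hb
    rw [one_smul, one_smul, add_zero] at h0
    have h00 : H95.PhiF X Θ 0 b = 0 := by
      have := h0
      exact (left_eq_add.1 this)
    have h := hL X Θ 0 (mtV v) (by simpa using symT_mtV 0) (symT_mtV v) c b hb
    rw [zero_add, h00, zero_add] at h
    rw [map_smul, h]
  · rw [Pi.smul_apply, phi0_ne hb, phi0_ne hb, smul_zero]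

variable (X Θ)

/-- **The local system of a closed form.** -/
def loc (hS : H95.BulkSmooth) (hL : H95.BulkLinear) (hW : H95.BulkLaw) : H681.Loc2 H213.VV ℝ where
  s := H213.sV
  Phi :=
    { toFun := phi0 X Θ
      map_add' := phi0_add hL
      map_smul' := phi0_smul hL }
  smooth v := (hS X Θ (mtV v) (symT_mtV v)).1.congr fun b hb => phi0_eq hb
  closed v b hb := by
    have h : (phi0 X Θ v) =ᶠ[𝓝 b] H95.PhiF X Θ (mtV v) := by
      filter_upwards [H681.isOpen_XX.mem_nhds hb] with b' hb'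
      exact phi0_eq hb'
    have h2 : extDeriv (phi0 X Θ v) b = extDeriv (H95.PhiF X Θ (mtV v)) b := by
      unfold extDeriv
      rw [h.fderiv_eq]
    exact h2.trans ((hS X Θ (mtV v) (symT_mtV v)).2 b hb)
  equi k v b hb hlt := by
    change phi0 X Θ v b =
      (phi0 X Θ (H213.sV k v) (H681.swL k b)).compContinuousLinearMap (H681.swL k)
    rw [phi0_eq hb, phi0_eq (swL_mem_XX hb hlt), mtV_sV]
    exact hW X Θ (mtV v) (symT_mtV v) k b hb hlt

theorem loc_s (hS : H95.BulkSmooth) (hL : H95.BulkLinear) (hW : H95.BulkLaw) :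
    (loc X Θ hS hL hW).s = H213.sV := rfl

theorem loc_Phi (hS : H95.BulkSmooth) (hL : H95.BulkLinear) (hW : H95.BulkLaw) (v : H213.VV)
    {b : H681.C6} (hb : b ∈ H681.XX) :
    (loc X Θ hS hL hW).Phi v b = H95.PhiF X Θ (mtV v) b := phi0_eq hb

end Loc

/-! ### The tori and the annuli at the theta point -/

section TA

theorem th_mem {d : Fin 3 → ℂ} (h1 : ∀ k, |(d k).re| < 1) (h2 : ∀ k, (d k).re = 0 → (d k).im < 0) :
    H828.th d ∈ H681.XX := by
  have a0 := abs_lt.1 (h1 0)
  have a1 := abs_lt.1 (h1 1)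
  have a2 := abs_lt.1 (h1 2)
  have h20 := h2 0
  have h21 := h2 1
  have h22 := h2 2
  intro i j hij hre
  fin_cases i <;> fin_cases j <;>
    first
    | (exfalso; revert hij; decide)
    | (simp [H828.th] at hre ⊢
       first
       | (exfalso; linarith)
       | (have := h20 (by linarith); linarith)
       | (have := h21 (by linarith); linarith)
       | (have := h22 (by linarith); linarith))

/-- A half difference of a pair that turns or rests. -/
def IsHd (z : ℂ) : Prop := |z.re| < 1 ∧ (z.re = 0 → z.im < 0)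

theorem isHd_zz {r : ℝ} (h0 : 0 < r) (h1 : r ≤ 1) {l s : ℝ} (hl : 0 ≤ l) (hs : s ∈ Icc (0 : ℝ) 1) :
    IsHd ((r : ℂ) / 2 * H828.zz l s) := by
  have hc : ((r : ℂ) / 2) = ((r / 2 : ℝ) : ℂ) := by push_cast; ring
  rw [hc]
  unfold IsHd
  rw [Complex.re_ofReal_mul, Complex.im_ofReal_mul, H828.zz_re, H828.zz_im]
  have he : 0 < Real.exp (-l) := Real.exp_pos _
  have he1 : Real.exp (-l) ≤ 1 := Real.exp_le_one_iff.2 (by linarith)
  constructor
  · rw [abs_mul, abs_mul, abs_of_pos (by positivity : 0 < r / 2), abs_of_pos he]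
    have h2 := Real.abs_cos_le_one (Real.pi * s)
    calc r / 2 * (Real.exp (-l) * |Real.cos (Real.pi * s)|) ≤ 1 / 2 * (1 * 1) := by
          gcongr
      _ < 1 := by norm_num
  · intro h
    have h2 : Real.cos (Real.pi * s) = 0 := by
      rcases mul_eq_zero.1 h with h3 | h3
      · linarith
      rcases mul_eq_zero.1 h3 with h4 | h4
      · exact absurd h4 he.ne'
      · exact h4
    have h3 : 0 ≤ Real.sin (Real.pi * s) := by
      apply Real.sin_nonneg_of_nonneg_of_le_pi
      · exact mul_nonneg Real.pi_pos.le hs.1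
      · nlinarith [Real.pi_pos, hs.2]
    have h4 : Real.sin (Real.pi * s) ≠ 0 := by
      intro h4
      have := Real.sin_sq_add_cos_sq (Real.pi * s)
      rw [h4, h2] at this
      norm_num at this
    have h5 : 0 < Real.sin (Real.pi * s) := lt_of_le_of_ne h3 (Ne.symm h4)
    have h6 : 0 < r / 2 * (Real.exp (-l) * Real.sin (Real.pi * s)) := by positivity
    linarith

theorem isHd_one {r : ℝ} (h0 : 0 < r) (h1 : r ≤ 1) : IsHd ((r : ℂ) / 2 * 1) := by
  have hc : ((r : ℂ) / 2 * 1) = ((r / 2 : ℝ) : ℂ) := by push_cast; ring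
  rw [hc]
  refine ⟨?_, fun h => ?_⟩
  · rw [Complex.ofReal_re, abs_of_pos (by positivity)]
    linarith
  · rw [Complex.ofReal_re] at h
    exfalso
    linarith

theorem torF_mem {r : ℝ} (hr : r ∈ Ioc (0 : ℝ) 1) (i j : Fin 3) {y : Fin 2 → ℝ}
    (hy : y ∈ Icc (0 : Fin 2 → ℝ) 1) : H828.torF r i j y ∈ H681.XX := by
  have h : ∀ k : Fin 3, IsHd ((r : ℂ) / 2 *
      (if k = i then H828.zz 0 (y 0) else if k = j then H828.zz 0 (y 1) else 1)) := by
    intro k
    split_ifs
    · exact isHd_zz hr.1 hr.2 le_rfl ⟨hy.1 0, hy.2 0⟩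
    · exact isHd_zz hr.1 hr.2 le_rfl ⟨hy.1 1, hy.2 1⟩
    · exact isHd_one hr.1 hr.2
  exact th_mem (fun k => (h k).1) fun k => (h k).2

theorem annF_mem {r : ℝ} (hr : r ∈ Ioc (0 : ℝ) 1) (i : Fin 3) {y : Fin 2 → ℝ}
    (hy : y ∈ H828.strip) : H828.annF r i y ∈ H681.XX := by
  have h : ∀ k : Fin 3, IsHd ((r : ℂ) / 2 * (if k = i then H828.zz (y 0) (y 1) else 1)) := by
    intro k
    split_ifs
    · exact isHd_zz hr.1 hr.2 hy.1 hy.2
    · exact isHd_one hr.1 hr.2
  exact th_mem (fun k => (h k).1) fun k => (h k).2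

theorem measurableSet_strip : MeasurableSet H828.strip := by
  have h : H828.strip = {y : Fin 2 → ℝ | 0 ≤ y 0} ∩ {y | y 1 ∈ Icc (0 : ℝ) 1} := rfl
  rw [h]
  refine MeasurableSet.inter ?_ ?_
  · exact measurableSet_le measurable_const (measurable_pi_apply 0)
  · exact (measurable_pi_apply 1) measurableSet_Icc

variable (X : H95.Ext) (Θ : H95.Gauge) (hS : H95.BulkSmooth) (hL : H95.BulkLinear)
  (hW : H95.BulkLaw)

/-- The torus integral in terms of `PhiF`. -/
theorem TOR_loc {r : ℝ} (hr : r ∈ Ioc (0 : ℝ) 1) (i j : Fin 3) (v : H213.VV) :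
    H828.TOR (loc X Θ hS hL hW) r i j v =
      H401.cubeInt (H401.pb (H828.torF r i j) (H95.PhiF X Θ (mtV v))) := by
  unfold H828.TOR H401.cubeInt
  refine setIntegral_congr_fun measurableSet_Icc fun y hy => ?_
  unfold H401.pb
  beta_reduce
  rw [loc_Phi X Θ hS hL hW v (torF_mem hr i j hy)]

/-- The annulus integral in terms of `PhiF`. -/
theorem ANN_loc {r : ℝ} (hr : r ∈ Ioc (0 : ℝ) 1) (i : Fin 3) (v : H213.VV) :
    H828.ANN (loc X Θ hS hL hW) r i v =
      ∫ y in H828.strip, H401.pb (H828.annF r i) (H95.PhiF X Θ (mtV v)) y (H401.eb 2) := by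
  unfold H828.ANN
  refine setIntegral_congr_fun measurableSet_strip fun y hy => ?_
  unfold H401.pb
  beta_reduce
  rw [loc_Phi X Θ hS hL hW v (annF_mem hr i hy)]

end TA

/-! ### The decay -/

section Neg

/-- **NEG** for the local system from 879's statement `NegOf`. -/
theorem neg_loc (hN : H879.NegOf) (X : H95.Ext) (Θ : H95.Gauge) (hΘ : H879.Asy1 Θ)
    (hS : H95.BulkSmooth) (hL : H95.BulkLinear) (hW : H95.BulkLaw) :
    H828.Neg (loc X Θ hS hL hW) := by
  intro k v hv K hK hKc
  have hv' : H213.sV k v = v := hv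
  have h1 : ∀ x : Fin 14 → H95.H4, mtV v (fun i => H95.sH k (x i)) = mtV v x := by
    intro x
    have h := mtV_sV k v
    rw [hv'] at h
    have h2 := congrArg (fun T : H95.MT => T x) h
    exact h2.symm
  obtain ⟨l₀, g, ε, h2, h3, h4, h5, h6⟩ := hN X Θ hΘ k (mtV v) (symT_mtV v) h1 K hK hKc
  refine ⟨l₀, g, ε, h2, h3, h4, h5, fun b hb l hl s hs => ?_⟩
  obtain ⟨h7, h8, h9⟩ := h6 b hb l hl s hs
  rw [loc_Phi X Θ hS hL hW v h7]
  exact ⟨h7, h8, h9⟩

end Neg

/-! ### The assembly of the middle -/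

section Asm

/-- **FAM** (input): every closed form on families gives an `Ext`; `P F X` says that `X` is the one
of `F`. -/
def ExtAll (P : Form16 → H95.Ext → Prop) : Prop :=
  ∀ F : Form16, H183.IsClosedForm Lg14 (8 * 2) F → ∃ X : H95.Ext, P F X

/-- **LIM** (input): the limit of the integral over tori minus annuli at the theta point; `Q Θ` is
the asymptotics of the gauge there. -/
def LimT (P : Form16 → H95.Ext → Prop) (Q : H95.Gauge → Prop) (z : H221.Cert H213.sV)
    (C : ℕ → ℕ → ℝ) (κ : ℝ) : Prop :=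
  ∀ (F : Form16) (X : H95.Ext) (Θ : H95.Gauge) (hS : H95.BulkSmooth) (hL : H95.BulkLinear)
    (hW : H95.BulkLaw), H183.IsClosedForm Lg14 (8 * 2) F → P F X → Q Θ →
    Tendsto (H221.TA z (loc X Θ hS hL hW)) (𝓝[>] 0) (𝓝 (κ *
      ∑ q ∈ Finset.range 7, ∑ p ∈ Finset.range (q + 1), C p q * H93.DS p q (str F)))

theorem bulkLim_of {P : Form16 → H95.Ext → Prop} {Q : H95.Gauge → Prop} (hX : ExtAll P)
    (hG : ∃ Θ : H95.Gauge, H879.Asy1 Θ ∧ Q Θ)
    (hS : H95.BulkSmooth) (hL : H95.BulkLinear) (hW : H95.BulkLaw) (hN : H879.NegOf)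
    {z : H221.Cert H213.sV} {C : ℕ → ℕ → ℝ} {κ : ℝ} (hT : LimT P Q z C κ) :
    H221.BulkLim H213.sV z C κ := by
  intro F hF
  obtain ⟨X, hX⟩ := hX F hF
  obtain ⟨Θ, h1, h2⟩ := hG
  exact ⟨loc X Θ hS hL hW, rfl, neg_loc hN X Θ h1 hS hL hW, hT F X Θ hS hL hW hF hX h2⟩

/-- **The statement `LimOut` of the top of the chain from the named inputs.** -/
theorem limOut {P : Form16 → H95.Ext → Prop} {Q : H95.Gauge → Prop} (hX : ExtAll P)
    (hG : ∃ Θ : H95.Gauge, H879.Asy1 Θ ∧ Q Θ)
    (hS : H95.BulkSmooth) (hL : H95.BulkLinear) (hW : H95.BulkLaw) (hN : H879.NegOf)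
    (hB : H221.Braid H213.sV) (hA : H221.Ann H213.VV)
    {z : H221.Cert H213.sV} {C : ℕ → ℕ → ℝ} {κ : ℝ} (hκ : κ ≠ 0) (hT : LimT P Q z C κ) :
    LimOut C :=
  H221.limOut_of H213.sV z hB hA hκ (bulkLim_of hX hG hS hL hW hN hT)

end Asm

end Vale.Agent.P273.H503
end
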