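import Vale.Agent.P273.H837.Strata
import Vale.Agent.P273.D14.H741.ZDefs

/-!
An element of the strata algebra of genus 2 with 14 legs, and the final statement. Everything here
is a definition.
-/

noncomputable section

namespace Vale.Agent.P273.H503

open Sum
open Vale.Agent.P273.Z (th Fn Pix Valid)

/-- The theta graph `th p q σ`; if `c` is true, the leg `(i, false)` at the vertex `some 6` is moved
to the other end `none` of the three chains. -/
def thx (c : Bool) (p q : ℕ) (σ : Bool → Equiv.Perm (Fin 7)) :
    ((Fin 3 ⊕ Fin 6) × Bool) ⊕ (Fin 7 × Bool) → Option (Fin 7) :=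
  Sum.elim (fun y => th p q σ (inl y)) fun x =>
    if c = true ∧ x.2 = false ∧ σ x.2 x.1 = 6 then none else some (σ x.2 x.1)

/-- The lengths of the three chains are `2,2,2`, `1,2,3`, `0,3,3`, `1,1,4`, `0,2,4`. -/
def tpq : Fin 5 → ℕ × ℕ := ![(2, 4), (1, 3), (0, 3), (1, 2), (0, 2)]

/-- The coefficients of the five types. -/
def tco : Fin 5 → ℚ := ![1, -2, 1, 1, -1]

/-- The index set of the element: the numbering of the legs, the type, and the place of one leg. -/
abbrev Ix : Type := (Bool → Equiv.Perm (Fin 7)) × Fin 5 × Bool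

/-- The coefficients of the element. -/
def xa (i : Ix) : ℚ :=
  ((Equiv.Perm.sign (i.1 true) * Equiv.Perm.sign (i.1 false) : ℤ) : ℚ) * tco i.2.1 *
    cond i.2.2 (-1) 1

/-- The graphs of the element. -/
def xh (i : Ix) : ((Fin 3 ⊕ Fin 6) × Bool) ⊕ (Fin 7 × Bool) → Option (Fin 7) :=
  thx i.2.2 (tpq i.2.1).1 (tpq i.2.1).2 i.1

/-- The final statement: the graphs are stable of type `(2, 14)` with 9 edges, the element
`∑ xa i [xh i]` is zero in cohomology, and some functional on the strata algebra that satisfies all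
of Pixton's relations is not zero at the element. -/
def Final : Prop :=
  (∀ i, Valid (fun _ => (0, 0)) (fun y => (xh i y, 0)) 2 9) ∧
  H837.Vanishes 8 xa xh ∧
  ∃ s : Fn (Fin 7 × Bool), Pix 2 9 s ∧
    ∑ i, xa i * s _ _ (fun _ => (0, 0)) (fun y => (xh i y, 0)) ≠ 0

end Vale.Agent.P273.H503

end
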