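import Vale.Agent.P273.H503.LocF
import Vale.Agent.P273.H562.AsyDefs
import Vale.Agent.P273.H811.Bulk

/-!
The front end of the limit: the tori and annuli at the theta point in the logarithmic coordinates
`(y, α)` of the base, `N = yr r`.
-/

noncomputable section
namespace Vale.Agent.P273.H503

open Set Filter MeasureTheory
open scoped Topology ContDiff

/-- Base parameters: lengths and angles. -/
abbrev Bs : Type := (Fin 3 → ℝ) × (Fin 3 → ℝ)

/-- The roots as a function of the base parameters. -/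
def RL (q : Bs) : H681.C6 := H562.rootsL q.1 q.2

/-- The length of the necks at radius `r`. -/
def yr (r : ℝ) : ℝ := -(2 * Real.log (8 * r))

theorem exp_yr {r : ℝ} (hr : 0 < r) : Real.exp (-(yr r) / 2) = 8 * r := by
  have h : -(yr r) / 2 = Real.log (8 * r) := by unfold yr; ring
  rw [h, Real.exp_log (by positivity)]

theorem hd_yr {r : ℝ} (hr : 0 < r) (l a : ℝ) :
    (1 / 16 : ℂ) * Complex.exp ((-((yr r + 2 * l : ℝ) : ℂ) + (a : ℂ) * Complex.I) / 2) =
      (r : ℂ) / 2 * Complex.exp (-(l : ℂ) + (a / 2 : ℝ) * Complex.I) := by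
  have h1 : (-((yr r + 2 * l : ℝ) : ℂ) + (a : ℂ) * Complex.I) / 2 =
      ((-(yr r) / 2 : ℝ) : ℂ) + (-(l : ℂ) + (a / 2 : ℝ) * Complex.I) := by
    push_cast
    ring
  rw [h1, Complex.exp_add, ← Complex.ofReal_exp, exp_yr hr]
  push_cast
  ring

/-- The angles on the torus. -/
def alT (i j : Fin 3) (s : Fin 2 → ℝ) (k : Fin 3) : ℝ :=
  if k = i then -(2 * Real.pi * s 0) else if k = j then -(2 * Real.pi * s 1) else 0

/-- The angles on the annulus. -/
def alA (i : Fin 3) (s : Fin 2 → ℝ) (k : Fin 3) : ℝ := if k = i then -(2 * Real.pi * s 1) else 0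

theorem torF_eq {r : ℝ} (hr : 0 < r) (i j : Fin 3) (s : Fin 2 → ℝ) :
    H828.torF r i j s = RL (fun _ => yr r, alT i j s) := by
  unfold H828.torF RL H562.rootsL
  congr 1
  funext k
  have h := hd_yr hr 0 (alT i j s k)
  rw [mul_zero, add_zero] at h
  rw [h]
  congr 1
  unfold alT H828.zz
  split_ifs
  · congr 1
    push_cast
    ring
  · congr 1
    push_cast
    ring
  · simp

theorem annF_eq {r : ℝ} (hr : 0 < r) (i : Fin 3) (s : Fin 2 → ℝ) :
    H828.annF r i s = RL (fun k => yr r + 2 * (if k = i then s 0 else 0), alA i s) := by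
  unfold H828.annF RL H562.rootsL
  congr 1
  funext k
  have h := hd_yr hr (if k = i then s 0 else 0) (alA i s k)
  rw [h]
  congr 1
  unfold alA H828.zz
  split_ifs
  · congr 1
    push_cast
    ring
  · simp

theorem contDiff_RL : ContDiff ℝ ∞ RL := by
  have h : ∀ k : Fin 3, ContDiff ℝ ∞ (fun q : Bs => (1 / 16 : ℂ) *
      Complex.exp ((-(q.1 k : ℂ) + (q.2 k : ℂ) * Complex.I) / 2)) := by
    intro k
    have h1 : ContDiff ℝ ∞ (fun q : Bs => ((q.1 k : ℝ) : ℂ)) :=
      Complex.ofRealCLM.contDiff.comp (contDiff_pi.1 contDiff_fst k)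
    have h2 : ContDiff ℝ ∞ (fun q : Bs => ((q.2 k : ℝ) : ℂ)) :=
      Complex.ofRealCLM.contDiff.comp (contDiff_pi.1 contDiff_snd k)
    exact contDiff_const.mul (((h1.neg.add (h2.mul contDiff_const)).div_const 2).cexp)
  refine contDiff_pi.2 fun a => ?_
  fin_cases a
  · exact contDiff_const.sub (h 0)
  · exact contDiff_const.add (h 0)
  · exact contDiff_const.sub (h 1)
  · exact contDiff_const.add (h 1)
  · exact contDiff_const.sub (h 2)
  · exact contDiff_const.add (h 2)

theorem differentiable_RL : Differentiable ℝ RL := contDiff_RL.differentiable (by simp)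

/-- `PhiF` on two base directions. -/
def ph2 (X : H95.Ext) (Θ : H95.Gauge) (T : H95.MT) (q d d' : Bs) : ℝ :=
  H95.PhiF X Θ T (RL q) ![fderiv ℝ RL q d, fderiv ℝ RL q d']

theorem alt_smul2 {M : Type*} [NormedAddCommGroup M] [NormedSpace ℝ M] (w : M [⋀^Fin 2]→L[ℝ] ℝ)
    (a b : ℝ) (u v : M) : w ![a • u, b • v] = a * b * w ![u, v] := by
  have h1 : (![a • u, b • v] : Fin 2 → M) = fun i => (![a, b] : Fin 2 → ℝ) i • ![u, v] i := by
    funext i
    fin_cases i <;> simp
  rw [h1]
  have h2 := w.map_smul_univ (![a, b] : Fin 2 → ℝ) ![u, v]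
  rw [h2]
  simp

theorem pb_two {A : (Fin 2 → ℝ) → Bs} {s : Fin 2 → ℝ} {A' : (Fin 2 → ℝ) →L[ℝ] Bs}
    (hA : HasFDerivAt A A' s) (w : H681.C6 → H681.C6 [⋀^Fin 2]→L[ℝ] ℝ) {a b : ℝ} {d d' : Bs}
    (h0 : A' (Pi.single 0 1) = a • d) (h1 : A' (Pi.single 1 1) = b • d') :
    H401.pb (fun s => RL (A s)) w s (H401.eb 2) =
      a * b * w (RL (A s)) ![fderiv ℝ RL (A s) d, fderiv ℝ RL (A s) d'] := by
  unfold H401.pb
  have h2 : HasFDerivAt (fun s => RL (A s)) ((fderiv ℝ RL (A s)).comp A') s :=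
    (differentiable_RL (A s)).hasFDerivAt.comp s hA
  rw [h2.fderiv, ContinuousAlternatingMap.compContinuousLinearMap_apply, ← alt_smul2]
  congr 1
  funext i
  fin_cases i
  · change (fderiv ℝ RL (A s)) (A' (H401.eb 2 0)) = _
    have : H401.eb 2 0 = Pi.single 0 1 := rfl
    rw [this, h0, map_smul]
    rfl
  · change (fderiv ℝ RL (A s)) (A' (H401.eb 2 1)) = _
    have : H401.eb 2 1 = Pi.single 1 1 := rfl
    rw [this, h1, map_smul]
    rfl

/-- The derivative of the angles on the torus. -/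
def dT (i j : Fin 3) : (Fin 2 → ℝ) →L[ℝ] Bs :=
  ContinuousLinearMap.inr ℝ _ _ ∘L ContinuousLinearMap.pi fun k =>
    if k = i then (-(2 * Real.pi)) • ContinuousLinearMap.proj 0
    else if k = j then (-(2 * Real.pi)) • ContinuousLinearMap.proj 1 else 0

theorem hasFDerivAt_T (N : ℝ) (i j : Fin 3) (s : Fin 2 → ℝ) :
    HasFDerivAt (fun s => ((fun _ => N, alT i j s) : Bs)) (dT i j) s := by
  have h : (fun s => ((fun _ => N, alT i j s) : Bs)) = fun s => ((fun _ => N, 0) : Bs) + dT i j s := by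
    funext s
    refine Prod.ext ?_ ?_
    · simp [dT]
    · funext k
      simp only [dT, alT, Prod.snd_add, ContinuousLinearMap.comp_apply,
        ContinuousLinearMap.inr_apply, Pi.add_apply, Pi.zero_apply, zero_add,
        ContinuousLinearMap.coe_pi']
      split_ifs <;> simp
  rw [h]
  exact (dT i j).hasFDerivAt.const_add _

theorem dT_zero {i j : Fin 3} : dT i j (Pi.single 0 1) = (-(2 * Real.pi)) • ((0, Pi.single i 1) : Bs) := by
  refine Prod.ext ?_ ?_
  · simp [dT]
  · funext k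
    change (if k = i then (-(2 * Real.pi)) • ContinuousLinearMap.proj 0
      else if k = j then (-(2 * Real.pi)) • ContinuousLinearMap.proj 1 else 0 :
        (Fin 2 → ℝ) →L[ℝ] ℝ) (Pi.single 0 1) = -(2 * Real.pi) * (Pi.single i 1 : Fin 3 → ℝ) k
    by_cases h1 : k = i
    · rw [if_pos h1, h1, Pi.single_eq_same]
      simp
    · rw [if_neg h1, Pi.single_eq_of_ne h1]
      split_ifs <;> simp

theorem dT_one {i j : Fin 3} (hij : i ≠ j) :
    dT i j (Pi.single 1 1) = (-(2 * Real.pi)) • ((0, Pi.single j 1) : Bs) := by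
  refine Prod.ext ?_ ?_
  · simp [dT]
  · funext k
    change (if k = i then (-(2 * Real.pi)) • ContinuousLinearMap.proj 0
      else if k = j then (-(2 * Real.pi)) • ContinuousLinearMap.proj 1 else 0 :
        (Fin 2 → ℝ) →L[ℝ] ℝ) (Pi.single 1 1) = -(2 * Real.pi) * (Pi.single j 1 : Fin 3 → ℝ) k
    by_cases h1 : k = i
    · rw [if_pos h1, Pi.single_eq_of_ne (fun h => hij (h1.symm.trans h))]
      simp
    · rw [if_neg h1]
      by_cases h2 : k = j
      · rw [if_pos h2, h2, Pi.single_eq_same]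
        simp
      · rw [if_neg h2, Pi.single_eq_of_ne h2]
        simp

/-- The derivative of the parameters on the annulus. -/
def dA (i : Fin 3) : (Fin 2 → ℝ) →L[ℝ] Bs :=
  (ContinuousLinearMap.pi fun k => if k = i then (2 : ℝ) • ContinuousLinearMap.proj 0 else 0).prod
    (ContinuousLinearMap.pi fun k => if k = i then (-(2 * Real.pi)) • ContinuousLinearMap.proj 1
      else 0)

theorem hasFDerivAt_A (N : ℝ) (i : Fin 3) (s : Fin 2 → ℝ) :
    HasFDerivAt (fun s : Fin 2 → ℝ => ((fun k => N + 2 * (if k = i then s 0 else 0), alA i s) : Bs))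
      (dA i) s := by
  have h : (fun s : Fin 2 → ℝ => ((fun k => N + 2 * (if k = i then s 0 else 0), alA i s) : Bs)) =
      fun s => ((fun _ => N, 0) : Bs) + dA i s := by
    funext s
    refine Prod.ext ?_ ?_
    · funext k
      simp only [dA, Prod.fst_add, Pi.add_apply, ContinuousLinearMap.prod_apply,
        ContinuousLinearMap.coe_pi']
      split_ifs <;> simp
    · funext k
      simp only [dA, alA, Prod.snd_add, Pi.add_apply, Pi.zero_apply, zero_add,
        ContinuousLinearMap.prod_apply, ContinuousLinearMap.coe_pi']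
      split_ifs <;> simp
  rw [h]
  exact (dA i).hasFDerivAt.const_add _

theorem dA_zero {i : Fin 3} : dA i (Pi.single 0 1) = (2 : ℝ) • ((Pi.single i 1, 0) : Bs) := by
  refine Prod.ext ?_ ?_
  · funext k
    change (if k = i then (2 : ℝ) • ContinuousLinearMap.proj 0 else 0 :
      (Fin 2 → ℝ) →L[ℝ] ℝ) (Pi.single 0 1) = 2 * (Pi.single i 1 : Fin 3 → ℝ) k
    by_cases h1 : k = i
    · rw [if_pos h1, h1, Pi.single_eq_same]
      simp
    · rw [if_neg h1, Pi.single_eq_of_ne h1]
      simp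
  · funext k
    change (if k = i then (-(2 * Real.pi)) • ContinuousLinearMap.proj 1 else 0 :
      (Fin 2 → ℝ) →L[ℝ] ℝ) (Pi.single 0 1) = 2 * (0 : Fin 3 → ℝ) k
    split_ifs <;> simp

theorem dA_one {i : Fin 3} : dA i (Pi.single 1 1) = (-(2 * Real.pi)) • ((0, Pi.single i 1) : Bs) := by
  refine Prod.ext ?_ ?_
  · funext k
    change (if k = i then (2 : ℝ) • ContinuousLinearMap.proj 0 else 0 :
      (Fin 2 → ℝ) →L[ℝ] ℝ) (Pi.single 1 1) = -(2 * Real.pi) * (0 : Fin 3 → ℝ) k
    split_ifs <;> simp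
  · funext k
    change (if k = i then (-(2 * Real.pi)) • ContinuousLinearMap.proj 1 else 0 :
      (Fin 2 → ℝ) →L[ℝ] ℝ) (Pi.single 1 1) = -(2 * Real.pi) * (Pi.single i 1 : Fin 3 → ℝ) k
    by_cases h1 : k = i
    · rw [if_pos h1, h1, Pi.single_eq_same]
      simp
    · rw [if_neg h1, Pi.single_eq_of_ne h1]
      simp

variable (X : H95.Ext) (Θ : H95.Gauge)

/-- The torus integral in logarithmic coordinates, all necks of length `N`. -/
def TOL (N : ℝ) (i j : Fin 3) (T : H95.MT) : ℝ :=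
  ∫ s in Icc (0 : Fin 2 → ℝ) 1, (2 * Real.pi) ^ 2 *
    ph2 X Θ T (fun _ => N, alT i j s) (0, Pi.single i 1) (0, Pi.single j 1)

/-- `1 ≤ z 0`, `z 1 ∈ [0,1]`. -/
def strip1 : Set (Fin 2 → ℝ) := {z | 1 ≤ z 0 ∧ z 1 ∈ Icc (0 : ℝ) 1}

/-- The lengths on the annulus: `N` for the necks that rest, `N * z 0` for the neck `i`. -/
def yA (i : Fin 3) (N : ℝ) (z : Fin 2 → ℝ) (k : Fin 3) : ℝ := if k = i then N * z 0 else N

/-- The annulus integral in logarithmic coordinates. -/
def ANL (N : ℝ) (i : Fin 3) (T : H95.MT) : ℝ :=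
  ∫ z in strip1, -(2 * Real.pi * N) *
    ph2 X Θ T (yA i N z, alA i z) (Pi.single i 1, 0) (0, Pi.single i 1)

theorem TOR_log (hS : H95.BulkSmooth) (hL : H95.BulkLinear) (hW : H95.BulkLaw) {r : ℝ}
    (hr : r ∈ Ioc (0 : ℝ) 1) {i j : Fin 3} (hij : i ≠ j) (v : H213.VV) :
    H828.TOR (loc X Θ hS hL hW) r i j v = TOL X Θ (yr r) i j (mtV v) := by
  rw [TOR_loc X Θ hS hL hW hr]
  unfold H401.cubeInt TOL
  refine setIntegral_congr_fun measurableSet_Icc fun s _ => ?_
  beta_reduce
  have h1 : H828.torF r i j = fun s => RL (fun _ => yr r, alT i j s) := by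
    funext s
    exact torF_eq hr.1 i j s
  rw [h1, pb_two (hasFDerivAt_T (yr r) i j s) _ dT_zero (dT_one hij)]
  unfold ph2
  ring

/-- The scaling of the first coordinate. -/
def scF (N : ℝ) (z : Fin 2 → ℝ) : Fin 2 → ℝ := ![N * (z 0 - 1) / 2, z 1]

/-- Its derivative. -/
def scD (N : ℝ) : (Fin 2 → ℝ) →L[ℝ] (Fin 2 → ℝ) :=
  LinearMap.toContinuousLinearMap (Matrix.toLin' (Matrix.diagonal ![N / 2, 1]))

theorem scD_det {N : ℝ} (hN : 0 < N) : |(scD N).det| = N / 2 := by
  have h : (scD N).det = N / 2 := by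
    unfold scD
    change LinearMap.det (Matrix.toLin' (Matrix.diagonal ![N / 2, 1])) = _
    rw [LinearMap.det_toLin', Matrix.det_diagonal, Fin.prod_univ_two]
    simp
  rw [h, abs_of_pos (by positivity)]

theorem hasFDerivAt_scF (N : ℝ) (z : Fin 2 → ℝ) : HasFDerivAt (scF N) (scD N) z := by
  have h : scF N = fun z => (![-(N / 2), 0] : Fin 2 → ℝ) + scD N z := by
    funext z
    funext k
    have h2 : ∀ k, (scD N z) k = (![N / 2, 1] : Fin 2 → ℝ) k * z k := by
      intro k
      change (Matrix.toLin' (Matrix.diagonal ![N / 2, 1])) z k = _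
      rw [Matrix.toLin'_apply, Matrix.mulVec_diagonal]
    rw [Pi.add_apply, h2]
    fin_cases k
    · simp [scF]
      ring
    · simp [scF]
  rw [h]
  exact (scD N).hasFDerivAt.const_add _

theorem scF_image {N : ℝ} (hN : 0 < N) : scF N '' strip1 = H828.strip := by
  ext y
  constructor
  · rintro ⟨z, ⟨h1, h2⟩, rfl⟩
    refine ⟨?_, ?_⟩
    · have : 0 ≤ N * (z 0 - 1) / 2 := by
        have := sub_nonneg.2 h1
        positivity
      simpa [scF] using this
    · simpa [scF] using h2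
  · rintro ⟨h1, h2⟩
    refine ⟨![1 + 2 * y 0 / N, y 1], ⟨?_, ?_⟩, ?_⟩
    · have : 0 ≤ 2 * y 0 / N := by positivity
      simpa using this
    · simpa using h2
    · funext k
      fin_cases k
      · simp [scF]
        field_simp
      · simp [scF]

theorem scF_inj {N : ℝ} (hN : 0 < N) : Set.InjOn (scF N) strip1 := by
  intro z _ w _ h
  have h0 := congrFun h 0
  have h1 := congrFun h 1
  simp only [scF, Matrix.cons_val_zero, Matrix.cons_val_one] at h0 h1
  funext k
  fin_cases k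
  · change z 0 = w 0
    have : N * (z 0 - 1) = N * (w 0 - 1) := by linarith
    have := mul_left_cancel₀ hN.ne' this
    linarith
  · exact h1

theorem measurableSet_strip1 : MeasurableSet strip1 := by
  have h : strip1 = {y : Fin 2 → ℝ | 1 ≤ y 0} ∩ {y | y 1 ∈ Icc (0 : ℝ) 1} := rfl
  rw [h]
  refine MeasurableSet.inter ?_ ?_
  · exact measurableSet_le measurable_const (measurable_pi_apply 0)
  · exact (measurable_pi_apply 1) measurableSet_Icc

theorem strip_scale {N : ℝ} (hN : 0 < N) (g : (Fin 2 → ℝ) → ℝ) :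
    ∫ y in H828.strip, g y = ∫ z in strip1, N / 2 * g (scF N z) := by
  rw [← scF_image hN, integral_image_eq_integral_abs_det_fderiv_smul volume measurableSet_strip1
    (fun z _ => (hasFDerivAt_scF N z).hasFDerivWithinAt) (scF_inj hN)]
  simp only [scD_det hN, smul_eq_mul]

theorem ANN_log (hS : H95.BulkSmooth) (hL : H95.BulkLinear) (hW : H95.BulkLaw) {r : ℝ}
    (hr : r ∈ Ioc (0 : ℝ) 1) (hN : 0 < yr r) (i : Fin 3) (v : H213.VV) :
    H828.ANN (loc X Θ hS hL hW) r i v = ANL X Θ (yr r) i (mtV v) := by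
  rw [ANN_loc X Θ hS hL hW hr]
  have h1 : H828.annF r i = fun s => RL (fun k => yr r + 2 * (if k = i then s 0 else 0),
      alA i s) := by
    funext s
    exact annF_eq hr.1 i s
  rw [h1]
  have h2 : ∀ s : Fin 2 → ℝ, H401.pb (fun s : Fin 2 → ℝ =>
      RL (fun k => yr r + 2 * (if k = i then s 0 else 0), alA i s)) (H95.PhiF X Θ (mtV v)) s
      (H401.eb 2) = -(4 * Real.pi) * ph2 X Θ (mtV v)
        (fun k => yr r + 2 * (if k = i then s 0 else 0), alA i s) (Pi.single i 1, 0)
        (0, Pi.single i 1) := by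
    intro s
    rw [pb_two (hasFDerivAt_A (yr r) i s) _ dA_zero dA_one]
    unfold ph2
    ring
  simp_rw [h2]
  rw [strip_scale hN]
  unfold ANL
  refine setIntegral_congr_fun measurableSet_strip1 fun z _ => ?_
  beta_reduce
  have h3 : ((fun k => yr r + 2 * (if k = i then scF (yr r) z 0 else 0), alA i (scF (yr r) z)) :
      Bs) = (yA i (yr r) z, alA i z) := by
    refine Prod.ext ?_ ?_
    · funext k
      simp only [yA, scF, Matrix.cons_val_zero]
      split_ifs
      · ring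
      · ring
    · rfl
  rw [h3]
  ring

/-- **Tori minus annuli at the theta point in logarithmic coordinates.** -/
def TAL (z : H221.Cert H213.sV) (N : ℝ) : ℝ :=
  TOL X Θ N 0 1 (mtV z.w13) + TOL X Θ N 0 2 (mtV z.w15) + TOL X Θ N 1 2 (mtV z.w35) -
    (ANL X Θ N 0 (mtV z.v1) + ANL X Θ N 1 (mtV z.v3) + ANL X Θ N 2 (mtV z.v5))

theorem TA_log (hS : H95.BulkSmooth) (hL : H95.BulkLinear) (hW : H95.BulkLaw)
    (z : H221.Cert H213.sV) {r : ℝ} (hr : r ∈ Ioc (0 : ℝ) 1) (hN : 0 < yr r) :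
    H221.TA z (loc X Θ hS hL hW) r = TAL X Θ z (yr r) := by
  unfold H221.TA TAL
  rw [TOR_log X Θ hS hL hW hr (by decide), TOR_log X Θ hS hL hW hr (by decide),
    TOR_log X Θ hS hL hW hr (by decide), ANN_log X Θ hS hL hW hr hN,
    ANN_log X Θ hS hL hW hr hN, ANN_log X Θ hS hL hW hr hN]

theorem tendsto_yr : Tendsto yr (𝓝[>] 0) atTop := by
  have h1 : Tendsto (fun r : ℝ => 8 * r) (𝓝[>] 0) (𝓝[>] 0) := by
    refine tendsto_nhdsWithin_iff.2 ⟨?_, ?_⟩
    · have : Tendsto (fun r : ℝ => 8 * r) (𝓝 0) (𝓝 (8 * 0)) :=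
        (continuous_const.mul continuous_id).tendsto 0
      rw [mul_zero] at this
      exact this.mono_left nhdsWithin_le_nhds
    · filter_upwards [self_mem_nhdsWithin] with r hr
      have : (0 : ℝ) < r := hr
      exact mem_Ioi.2 (by positivity)
  have h2 := Real.tendsto_log_nhdsGT_zero.comp h1
  have h3 : Tendsto (fun r : ℝ => 2 * Real.log (8 * r)) (𝓝[>] 0) atBot :=
    h2.const_mul_atBot (by norm_num)
  exact tendsto_neg_atBot_atTop.comp h3

/-- **The limit at the theta point in logarithmic coordinates gives `LimT`.** -/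
theorem limT_of {P : Form16 → H95.Ext → Prop} {Q : H95.Gauge → Prop} {z : H221.Cert H213.sV}
    {C : ℕ → ℕ → ℝ} {κ : ℝ}
    (h : ∀ (F : Form16) (X : H95.Ext) (Θ : H95.Gauge), H183.IsClosedForm Lg14 (8 * 2) F →
      P F X → Q Θ → Tendsto (TAL X Θ z) atTop (𝓝 (κ *
        ∑ q ∈ Finset.range 7, ∑ p ∈ Finset.range (q + 1), C p q * H93.DS p q (str F)))) :
    LimT P Q z C κ := by
  intro F X Θ hS hL hW hF hP hQ
  refine ((h F X Θ hF hP hQ).comp tendsto_yr).congr' ?_
  filter_upwards [Ioc_mem_nhdsGT (zero_lt_one (α := ℝ)), tendsto_yr.eventually_gt_atTop 0]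
    with r hr hN
  exact (TA_log X Θ hS hL hW z hr hN).symm

end Vale.Agent.P273.H503
end
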