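import Vale.Agent.P273.H503.Front
import Vale.Agent.P273.H573.Skel2

/-!
Tori and annuli in the chart, for any local system given by `PhiF` (step S2 of the limit).
-/

noncomputable section
namespace Vale.Agent.P273.H503

open Set Filter MeasureTheory
open scoped Topology

variable {X : H95.Ext} {Θ : H95.Gauge} {v : H213.VV} {D : H681.Loc2 H213.VV ℝ}

/-- The torus integral in logarithmic coordinates. -/
theorem TOR_D (hD : ∀ b ∈ H681.XX, D.Phi v b = H95.PhiF X Θ (mtV v) b) {r : ℝ}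
    (hr : r ∈ Ioc (0 : ℝ) 1) {i j : Fin 3} (hij : i ≠ j) :
    H828.TOR D r i j v = TOL X Θ (yr r) i j (mtV v) := by
  unfold H828.TOR H401.cubeInt TOL
  refine setIntegral_congr_fun measurableSet_Icc fun s hs => ?_
  beta_reduce
  have h0 : H401.pb (H828.torF r i j) (D.Phi v) s =
      H401.pb (H828.torF r i j) (H95.PhiF X Θ (mtV v)) s := by
    unfold H401.pb
    rw [hD _ (torF_mem hr i j hs)]
  have h1 : H828.torF r i j = fun s => RL (fun _ => yr r, alT i j s) := by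
    funext s
    exact torF_eq hr.1 i j s
  rw [h0, h1, pb_two (hasFDerivAt_T (yr r) i j s) _ dT_zero (dT_one hij)]
  unfold ph2
  ring

theorem ANN_D_ (hD : ∀ b ∈ H681.XX, D.Phi v b = H95.PhiF X Θ (mtV v) b) {r : ℝ}
    (hr : r ∈ Ioc (0 : ℝ) 1) (hN : 0 < yr r) (i : Fin 3) :
    H828.ANN D r i v = ANL X Θ (yr r) i (mtV v) := by
  have h1 : H828.annF r i = fun s => RL (fun k => yr r + 2 * (if k = i then s 0 else 0),
      alA i s) := by
    funext s
    exact annF_eq hr.1 i s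
  have h2 : ∀ s ∈ H828.strip, H401.pb (H828.annF r i) (D.Phi v) s
      (H401.eb 2) = -(4 * Real.pi) * ph2 X Θ (mtV v)
        (fun k => yr r + 2 * (if k = i then s 0 else 0), alA i s) (Pi.single i 1, 0)
        (0, Pi.single i 1) := by
    intro s hs
    have h0 : H401.pb (H828.annF r i) (D.Phi v) s =
        H401.pb (H828.annF r i) (H95.PhiF X Θ (mtV v)) s := by
      unfold H401.pb
      rw [hD _ (annF_mem hr i hs)]
    rw [h0, h1, pb_two (hasFDerivAt_A (yr r) i s) _ dA_zero dA_one]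
    unfold ph2
    ring
  unfold H828.ANN
  rw [setIntegral_congr_fun measurableSet_strip h2, strip_scale hN]
  unfold ANL
  refine setIntegral_congr_fun measurableSet_strip1 fun z _ => ?_
  beta_reduce
  have h3 : ((fun k => yr r + 2 * (if k = i then scF (yr r) z 0 else 0), alA i (scF (yr r) z)) :
      Bs) = (yA i (yr r) z, alA i z) := by
    refine Prod.ext ?_ ?_
    · funext k
      simp only [yA, scF, Matrix.cons_val_zero]
      split_ifs
      · ring
      · ring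
    · rfl
  rw [h3]
  ring

theorem strip1_prod (g : ℝ × ℝ → ℝ) :
    ∫ z in strip1, g (z 0, z 1) = ∫ q in Ioi (1 : ℝ) ×ˢ Icc (0 : ℝ) 1, g q := by
  have h1 : (Ioi (1 : ℝ) ×ˢ Icc (0 : ℝ) 1 : Set (ℝ × ℝ)) =ᵐ[volume] Ici (1 : ℝ) ×ˢ Icc (0 : ℝ) 1 :=
    Measure.set_prod_ae_eq Ioi_ae_eq_Ici (ae_eq_refl _)
  rw [setIntegral_congr_set h1]
  have h2 := (volume_preserving_finTwoArrow ℝ).setIntegral_preimage_emb
    MeasurableEquiv.finTwoArrow.measurableEmbedding g (Ici (1 : ℝ) ×ˢ Icc (0 : ℝ) 1)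
  rw [← h2]
  rfl

/-- The annulus integral in logarithmic coordinates, over `(1, ∞) × [0, 1]`. -/
theorem ANN_D (hD : ∀ b ∈ H681.XX, D.Phi v b = H95.PhiF X Θ (mtV v) b) {r : ℝ}
    (hr : r ∈ Ioc (0 : ℝ) 1) (hN : 0 < yr r) (i : Fin 3) :
    H828.ANN D r i v = ∫ q in Ioi (1 : ℝ) ×ˢ Icc (0 : ℝ) 1, -(2 * Real.pi * yr r) *
      ph2 X Θ (mtV v) (H573.yA i (yr r) q.1, H573.aA i q.2) (Pi.single i 1, 0)
        (0, Pi.single i 1) := by
  rw [ANN_D_ hD hr hN i]
  unfold ANL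
  rw [← strip1_prod (fun q : ℝ × ℝ => -(2 * Real.pi * yr r) *
      ph2 X Θ (mtV v) (H573.yA i (yr r) q.1, H573.aA i q.2) (Pi.single i 1, 0)
        (0, Pi.single i 1))]
  refine setIntegral_congr_fun measurableSet_strip1 fun z _ => ?_
  beta_reduce
  have h3 : ((yA i (yr r) z, alA i z) : Bs) = (H573.yA i (yr r) (z 0), H573.aA i (z 1)) := by
    refine Prod.ext rfl ?_
    funext k
    simp only [alA, H573.aA]
    split_ifs
    · ring
    · rfl
  rw [h3]

theorem yr_eq (r : ℝ) : yr r = -2 * Real.log (8 * r) := by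
  unfold yr
  ring

theorem alT_eq (i j : Fin 3) (s : Fin 2 → ℝ) : alT i j s = H573.aT i j s := by
  funext k
  simp only [alT, H573.aT]
  split_ifs
  · ring
  · ring
  · rfl

theorem aT_mem (i j : Fin 3) {s : Fin 2 → ℝ} (hs : s ∈ Icc (0 : Fin 2 → ℝ) 1) (k : Fin 3) :
    -7 ≤ H573.aT i j s k ∧ H573.aT i j s k ≤ 1 := by
  have hp := Real.pi_lt_d2
  have hp0 := Real.pi_pos
  have h0 := hs.1 0
  have h1 := hs.2 0
  have h2 := hs.1 1
  have h3 := hs.2 1
  simp only [Pi.zero_apply, Pi.one_apply] at h0 h1 h2 h3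
  simp only [H573.aT]
  split_ifs
  · constructor <;> nlinarith
  · constructor <;> nlinarith
  · constructor <;> norm_num

/-- The torus as an integral of `PhiF`. -/
theorem TOR_PhiF (hD : ∀ b ∈ H681.XX, D.Phi v b = H95.PhiF X Θ (mtV v) b) {r : ℝ}
    (hr : r ∈ Ioc (0 : ℝ) 1) {i j : Fin 3} (hij : i ≠ j) :
    H828.TOR D r i j v = ∫ s in Icc (0 : Fin 2 → ℝ) 1,
      H95.PhiF X Θ (mtV v) (H562.rootsL (H573.yT (yr r)) (H573.aT i j s))
        ![fderiv ℝ H573.rtp (H573.yT (yr r), H573.aT i j s) (0, (-2 * Real.pi) • Pi.single i 1),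
          fderiv ℝ H573.rtp (H573.yT (yr r), H573.aT i j s)
            (0, (-2 * Real.pi) • Pi.single j 1)] := by
  rw [TOR_D hD hr hij]
  unfold TOL
  refine setIntegral_congr_fun measurableSet_Icc fun s _ => ?_
  beta_reduce
  rw [alT_eq]
  have h1 : ∀ a : Fin 3, ((0, (-2 * Real.pi) • Pi.single a 1) : Bs) =
      (-2 * Real.pi) • ((0, Pi.single a 1) : Bs) := by
    intro a
    refine Prod.ext ?_ rfl
    simp
  rw [h1, h1, map_smul, map_smul, alt_smul2]
  have h2 : (2 * Real.pi) ^ 2 = -2 * Real.pi * (-2 * Real.pi) := by ring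
  rw [h2]
  rfl

/-- Integrability of the contributions of the regions to the torus. -/
def TorInt (X : H95.Ext) (Θ : H95.Gauge) : Prop :=
  ∀ v : H213.VV, H573.WtT 9 (mtV v) → ∃ N₀ : ℝ, ∀ N ≥ N₀, ∀ i j : Fin 3, i < j →
    ∀ (R : H95.Region) (m : ∀ k, Fin (R.n k + 1)) (far : R.Cm → Bool),
    IntegrableOn (fun s => H573.IR R m X Θ (mtV v) far (H573.yT N) (H573.aT i j s)
      (fun _ => (-2 * Real.pi) • (H562.W R m).vec (.al i))
      (fun _ => (-2 * Real.pi) • (H562.W R m).vec (.al j))) (Icc (0 : Fin 2 → ℝ) 1)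

theorem exists_r₀ (M : ℝ) : ∃ r₀ > 0, ∀ r ∈ Ioc 0 r₀, r ∈ Ioc (0 : ℝ) 1 ∧ M ≤ yr r := by
  have h1 := (Ioc_mem_nhdsGT (zero_lt_one (α := ℝ)))
  have h2 : ∀ᶠ r in 𝓝[>] (0 : ℝ), r ∈ Ioc (0 : ℝ) 1 ∧ M ≤ yr r :=
    (eventually_mem_set.2 h1).and (tendsto_yr.eventually_ge_atTop M)
  obtain ⟨r₀, hr₀, h3⟩ := mem_nhdsGT_iff_exists_Ioc_subset.1 h2
  exact ⟨r₀, hr₀, fun r hr => h3 hr⟩

/-- **(S2, tori)** from (S1). -/
theorem limTor (h : H573.LimFib X Θ) (hI : TorInt X Θ) (v : H213.VV)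
    (D : H681.Loc2 H213.VV ℝ) (hD : ∀ b ∈ H681.XX, D.Phi v b = H95.PhiF X Θ (mtV v) b)
    (hw : H573.WtT 9 (mtV v)) (i j : Fin 3) (hij : i < j) :
    ∃ r₀ > 0, ∀ r ∈ Ioc 0 r₀,
      H828.TOR D r i j v = ∑ R : H95.Region, ∑ m : ∀ k, Fin (R.n k + 1), ∑ far : R.Cm → Bool,
        H573.torR R m X Θ (mtV v) far i j (-2 * Real.log (8 * r)) := by
  obtain ⟨N₀, h⟩ := h
  obtain ⟨N₁, hI⟩ := hI v hw
  obtain ⟨r₀, hr₀, h1⟩ := exists_r₀ (max N₀ N₁)
  refine ⟨r₀, hr₀, fun r hr => ?_⟩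
  obtain ⟨h2, h3⟩ := h1 r hr
  have hN0 := (le_max_left _ _).trans h3
  have hN1 := (le_max_right _ _).trans h3
  rw [TOR_PhiF hD h2 hij.ne, ← yr_eq]
  have h4 : ∀ s ∈ Icc (0 : Fin 2 → ℝ) 1,
      H95.PhiF X Θ (mtV v) (H562.rootsL (H573.yT (yr r)) (H573.aT i j s))
        ![fderiv ℝ H573.rtp (H573.yT (yr r), H573.aT i j s) (0, (-2 * Real.pi) • Pi.single i 1),
          fderiv ℝ H573.rtp (H573.yT (yr r), H573.aT i j s)
            (0, (-2 * Real.pi) • Pi.single j 1)] =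
      ∑ R : H95.Region, ∑ m : ∀ k, Fin (R.n k + 1), ∑ far : R.Cm → Bool,
        H573.IR R m X Θ (mtV v) far (H573.yT (yr r)) (H573.aT i j s)
          (fun _ => (-2 * Real.pi) • (H562.W R m).vec (.al i))
          (fun _ => (-2 * Real.pi) • (H562.W R m).vec (.al j)) := by
    intro s hs
    exact h (mtV v) (symT_mtV v) _ _ (fun _ => hN0) (fun k => aT_mem i j hs k) _ _
      (fun R m _ => (-2 * Real.pi) • (H562.W R m).vec (.al i))
      (fun R m _ => (-2 * Real.pi) • (H562.W R m).vec (.al j))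
      (fun R m p => ⟨by simp [H732.Reg.vec], by simp [H732.Reg.vec]⟩)
      (fun R m p => ⟨by simp [H732.Reg.vec], by simp [H732.Reg.vec]⟩)
  rw [setIntegral_congr_fun measurableSet_Icc h4]
  have h5 := hI (yr r) hN1 i j hij
  rw [integral_finsetSum _ fun R _ => integrable_finsetSum _ fun m _ =>
    integrable_finsetSum _ fun far _ => h5 R m far]
  refine Finset.sum_congr rfl fun R _ => ?_
  rw [integral_finsetSum _ fun m _ => integrable_finsetSum _ fun far _ => h5 R m far]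
  refine Finset.sum_congr rfl fun m _ => ?_
  rw [integral_finsetSum _ fun far _ => h5 R m far]
  rfl

end Vale.Agent.P273.H503
end
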